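import Vale.Agent.P292.Stmt

/-! Statement definitions for P280 (rational homogeneous varieties). The variety `X ⊆ ℙ^N` is given
by its function field `K` and the homogeneous coordinates `t` of its generic point, as in P271. -/

namespace Vale.Agent.P280

open Vale.Agent.P271

variable {K : Type} [Field K] [Algebra ℂ K] {N : ℕ}

/-- `y' = exp (a) y` for an ad-nilpotent element `a` of the Lie algebra `G` acting on the module
`V`; these maps generate the connected group attached to `G` acting on `V`. -/
def RepStep (G : Type) [LieRing G] [LieAlgebra ℂ G] {V : Type} [AddCommGroup V] [Module ℂ V]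
    [LieRingModule G V] [LieModule ℂ G V] (y y' : V) : Prop :=
  ∃ (a : G) (k : ℕ), IsNilpotent (LieAlgebra.ad ℂ G a) ∧ LieModule.toEnd ℂ G V a ^ k = 0 ∧
    y' = ∑ i ∈ Finset.range k, ((i.factorial : ℂ)⁻¹) • (LieModule.toEnd ℂ G V a ^ i) y

/-- `X` is rational homogeneous: it is isomorphic to a projective variety `Y ⊆ ℙ(V)` whose points
form one orbit of the connected semisimple group acting on the finite dimensional module `V` of a
finite dimensional semisimple Lie algebra `G`. -/
def IsRatHomog (t : Fin (N + 1) → K) : Prop :=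
  ∃ (G : Type) (_ : LieRing G) (_ : LieAlgebra ℂ G) (_ : Module.Finite ℂ G)
    (_ : LieAlgebra.IsSemisimple ℂ G) (V : Type) (_ : AddCommGroup V) (_ : Module ℂ V)
    (_ : LieRingModule G V) (_ : LieModule ℂ G V) (M : ℕ) (b : Module.Basis (Fin (M + 1)) ℂ V)
    (e : V) (x : Fin (M + 1) → K),
    e ≠ 0 ∧
    (∀ w, OnX x w ↔ ∃ (c : ℂ) (y : V), c ≠ 0 ∧ Relation.ReflTransGen (RepStep G) e y ∧
      b.equivFun.symm w = c • y) ∧
    {O | ∃ v, OnX t v ∧ O = locRing t v} = {O | ∃ w, OnX x w ∧ O = locRing x w}

end Vale.Agent.P280
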