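import Vale.Agent.P292.Main
import Vale.Agent.P280.Stmt

/-! P280: an adjoint variety is rational homogeneous. -/

namespace Vale.Agent.P280

open Vale.Agent.P271 Vale.Agent.P276 Vale.Agent.P292

theorem homog_of_adj {K : Type} [Field K] [Algebra ℂ K] {N : ℕ} {t : Fin (N + 1) → K}
    {θ : Derivation ℂ K K →ₗ[K] K} (h : IsAdjoint t θ) : IsRatHomog t := by
  obtain ⟨G, i1, i2, i3, M, b, e, x, he, -, hx, hO, -⟩ := h
  have hs : (RepStep G : G → G → Prop) = AdStep := by
    funext y y'
    apply propext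
    constructor
    · rintro ⟨a, k, -, h1, h2⟩
      exact ⟨a, k, h1, h2⟩
    · rintro ⟨a, k, h1, h2⟩
      exact ⟨a, k, ⟨k, h1⟩, h1, h2⟩
  refine ⟨G, i1, i2, Module.Finite.of_basis b, inferInstance, G, inferInstance, inferInstance,
    inferInstance, inferInstance, M, b, e, x, he, fun w => ?_, hO⟩
  rw [hs]
  exact hx w

end Vale.Agent.P280
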